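import Vale.Agent.P011.D4I.H68.AutI
import Vale.Agent.P011.D4I.H553.TQ
import Vale.Agent.P011.D4T.H369.Gen2

/-!
Block D4I, row gen2: the stabiliser of the standard plane.
-/

open NumberField Topology

set_option linter.unusedSectionVars false

namespace Vale.Agent.P011.D4I

open Vale.Agent.P011.MPQ Vale.Agent.P011.D4 Vale.Agent.P011.D4.Oct Vale.Agent.P011.D4.Em
open Vale.Agent.P011.D4T
open Vale.Agent.P011.D4T.H369 (xj line_xj Jm_xj norm_sim norm_xj norm_mo Jm_smul' xj_smul xj_add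
  tri_ep_xj tri_xj_em t0_xj al_ne ext_tQ tQ_t0 ep_eq exists_n)
open Vale.Agent.P011.E6 (tripO tripO_oup tripO_omap)
open Vale.Agent.P011.D4.B.FI (fixI fixI_top mem_fixI)

namespace H369

section zmain

variable {k L E : Type} [Field k] [Field L] [Field E] [Algebra k L] [Algebra k E] [Algebra L E]
  [IsScalarTower k L E] [NeZero (2 : E)] {ρ σ ι : E ≃ₐ[k] E} {α : E}
  {a b c b' c' : kˣ} {q : Lˣ} {j l : Oct a b c}

theorem t0_Im (x : OctL E a b c) : t0 E a b c (Im ι x) = Im ι (t0 E a b c x) := by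
  apply Oct.ext
  · rfl
  · exact (qmap_neg ι (-x.snd)).symm

theorem tripO_Im (h : Trip a b' c' gi j l) (x : OctL E a b' c') :
    tripO E h (Im ι x) = Im ι (tripO E h x) := by
  rw [Im, Im, tripO_omap, tripO_star]

theorem Im_xj (hια : ι α = α) (s : E) :
    Im ι (s • xj α 1 0 : OctL E a b c) = -(ι s • xj α 1 0) := by
  have h3 : ι (2 : E) = 2 := map_ofNat ι 2
  rw [xj_smul, xj_smul]
  apply Oct.ext
  · apply QuaternionAlgebra.ext
    · change ι (0 + 0 * 0) = -0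
      rw [mul_zero, add_zero, map_zero, neg_zero]
    · change ι (-0) = -0
      rw [neg_zero, map_zero]
    · change ι (-((s * 1 + s * 0) / 2)) = -((ι s * 1 + ι s * 0) / 2)
      rw [map_neg, map_div₀, map_add, map_mul, map_mul, map_one, map_zero, h3]
    · change ι (-((s * 1 - s * 0) / (2 * α))) = -((ι s * 1 - ι s * 0) / (2 * α))
      rw [map_neg, map_div₀, map_sub, map_mul, map_mul, map_mul, map_one, map_zero, h3, hια]
  · change qmap ι (-(0 : Qt (up E a) (up E b))) = -0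
    rw [neg_zero, qmap_zero]

/-- The comparison of the invariants. -/
theorem zmain (hρ3 : ∀ x, ρ (ρ (ρ x)) = x) (hα : α * α = algebraMap k E a) (hρα : ρ α = α)
    (hσα : σ α = -α) (hια : ι α = α) {Z : OctL E a b c ≃ₗ[E] OctL E a b' c'} {κ t : E}
    (h1 : ∀ x y, Z (tri ρ x y) = κ • tri ρ (Z x) (Z y)) (hκ : κ ≠ 0)
    (h2 : ∀ x, Z (Jm ρ σ α q x) = Jm ρ σ α q (Z x))
    (h3 : ∀ x, Z (t0 E a b c x) = t0 E a b' c' (Z x))
    (h4 : ∀ x, Z (Im ι x) = Im ι (Z x)) (he : Z (ep α) = t • ep α) :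
    ∃ s : E, s ≠ 0 ∧ t ≠ 0 ∧ ι s = s ∧ κ * ρ (ρ κ) * ρ (t * σ t) = 1 ∧
      algebraMap k E (b : k) * (t * σ t) = algebraMap k E (b' : k) * (s * σ s) := by
  have n2 : (2 : E) ≠ 0 := NeZero.ne 2
  have hα0 := al_ne hα
  have ht : t ≠ 0 := by
    rintro rfl
    rw [zero_smul] at he
    have h5 : (ep α : OctL E a b c) = 0 := Z.injective (by rw [he, map_zero])
    have h6 : (1 / 2 : E) = 0 := congrArg (fun z : OctL E a b c => z.fst.re) h5
    exact (one_div_ne_zero n2) h6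
  have hem : Z (1 - ep α) = σ t • (1 - ep α) := by
    rw [← D4T.H369.Jm_ep (ρ := ρ) (q := q) hα hσα, h2, he, Jm_smul', D4T.H369.Jm_ep hα hσα]
  have hσt : σ t ≠ 0 := (map_ne_zero σ).mpr ht
  -- the line `e₊ j`
  have hx0 : (xj α 1 0 : OctL E a b c) ≠ 0 := by
    intro h5
    have h6 : ((1 + 0) / 2 : E) = 0 := congrArg (fun z : OctL E a b c => z.fst.imJ) h5
    rw [add_zero] at h6
    exact (one_div_ne_zero n2) h6
  have hx0' : (xj α 1 0 : OctL E a b' c') ≠ 0 := by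
    intro h5
    have h6 : ((1 + 0) / 2 : E) = 0 := congrArg (fun z : OctL E a b' c' => z.fst.imJ) h5
    rw [add_zero] at h6
    exact (one_div_ne_zero n2) h6
  obtain ⟨s, hs⟩ : ∃ s : E, Z (xj α 1 0) = s • xj α 1 0 := by
    apply line_xj hα hρα
    · have e := h3 (xj α 1 0)
      rw [t0_xj] at e
      have e' := congrArg Oct.snd e
      change (Z (xj α 1 0)).snd = -(Z (xj α 1 0)).snd at e'
      have e3 : (2 : E) • (Z (xj α 1 0)).snd = 0 := by
        rw [two_smul]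
        nth_rewrite 1 [e']
        exact neg_add_cancel _
      exact (smul_eq_zero.mp e3).resolve_left n2
    · have e := h1 (ep α) (xj α 1 0)
      rw [tri_ep_xj hα hρα, map_zero, he, tri_smul_left, smul_smul] at e
      exact (smul_eq_zero.mp e.symm).resolve_left (mul_ne_zero hκ ((map_ne_zero ρ).mpr ht))
    · have e := h1 (xj α 1 0) (1 - ep α)
      rw [tri_xj_em hα hρα, map_zero, hem, tri_smul_right, smul_smul] at e
      exact (smul_eq_zero.mp e.symm).resolve_left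
        (mul_ne_zero hκ ((map_ne_zero ρ).mpr ((map_ne_zero ρ).mpr hσt)))
  have hq0 : algebraMap L E q * ρ (algebraMap L E q) ≠ 0 := by
    have : algebraMap L E (q : L) ≠ 0 := (map_ne_zero _).mpr q.ne_zero
    exact mul_ne_zero this ((map_ne_zero ρ).mpr this)
  have hs' : Z (xj α 0 1) = σ s • xj α 0 1 := by
    have e := h2 (xj α 1 0)
    rw [Jm_xj hα hσα, map_smul, hs, Jm_smul', Jm_xj hα hσα, smul_comm] at e
    exact smul_right_injective _ hq0 e
  have hs0 : s ≠ 0 := by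
    rintro rfl
    rw [zero_smul] at hs
    exact hx0 (Z.injective (by rw [hs, map_zero]))
  have hιs : ι s = s := by
    have e := h4 (xj α 1 0)
    rw [hs, Im_xj hια] at e
    have e' : (Im ι (xj α 1 0) : OctL E a b c) = -(xj α 1 0) := by
      have := Im_xj (a := a) (b := b) (c := c) hια (1 : E)
      rwa [one_smul, map_one, one_smul] at this
    rw [e', map_neg, hs, neg_inj] at e
    exact (smul_left_injective E hx0' e).symm
  -- the norms
  have e1 := norm_sim hρ3 h1 (1 : OctL E a b c)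
  have e2 : (1 : OctL E a b c) = (1 : E) • ep α + (1 : E) • (1 - ep α) := by
    rw [one_smul, one_smul, add_sub_cancel]
  have e3 : Z 1 = t • ep α + σ t • (1 - ep α) := by
    rw [e2, map_add, map_smul, map_smul, he, hem, one_smul, one_smul]
  rw [e3, norm_mo hα hα0, e2, norm_mo hα hα0, mul_one, map_one] at e1
  refine ⟨s, hs0, ht, hιs, e1.symm, ?_⟩
  have e4 := norm_sim hρ3 h1 (xj α 1 1 : OctL E a b c)
  have e5 : (xj α 1 1 : OctL E a b c) = xj α 1 0 + xj α 0 1 := by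
    rw [xj_add, add_zero, zero_add]
  have e6 : Z (xj α 1 1) = xj α s (σ s) := by
    rw [e5, map_add, hs, hs', xj_smul, xj_smul, xj_add, mul_one, mul_zero, mul_zero, mul_one,
      add_zero, zero_add]
  rw [e6, norm_xj hα hα0, norm_xj hα hα0, mul_one, mul_one] at e4
  have hC : κ * ρ (ρ κ) ≠ 0 := by
    intro h
    rw [h, zero_mul] at e1
    exact one_ne_zero e1
  apply ρ.injective
  apply mul_left_cancel₀ hC
  simp only [map_mul, map_neg] at e1 e4 ⊢
  linear_combination ρ (algebraMap k E (b : k)) * e1.symm - e4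

/-- The norm from the quadratic extension. -/
theorem exists_pr (H : HyI ρ σ ι α a b c q) {s t : E} {κ : Lˣ} (hs : s ≠ 0) (hιs : ι s = s)
    (hκ : ρ (algebraMap L E (κ : L)) * ρ (ρ (ρ (algebraMap L E (κ : L)))) * ρ (t * σ t) = 1)
    (h : algebraMap k E (b : k) * (t * σ t) = algebraMap k E (b' : k) * (s * σ s)) :
    ∃ p r : k, (b : k) * (p ^ 2 - a * r ^ 2) = b' := by
  have n2 : (2 : E) ≠ 0 := NeZero.ne 2
  have hα0 : α ≠ 0 := al_ne H.α2
  have hb0 : algebraMap k E (b : k) ≠ 0 := (map_ne_zero _).mpr b.ne_zero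
  have hb0' : algebraMap k E (b' : k) ≠ 0 := (map_ne_zero _).mpr b'.ne_zero
  obtain ⟨x, hx⟩ : ∃ x, x = algebraMap L E (κ : L) := ⟨_, rfl⟩
  have hx0 : x ≠ 0 := by rw [hx]; exact (map_ne_zero _).mpr κ.ne_zero
  have hσx : σ x = x := by rw [hx, H.σL]
  have hιx : ι x = ρ (ρ x) := by rw [hx, H.ιL]
  rw [← hx] at hκ
  have e0 : x * ρ (ρ x) * (t * σ t) = 1 := by
    apply ρ.injective
    rw [map_mul, map_mul, map_one, hκ]
  -- `b x ρ²x s σs = b' ⁻¹ ..`
  have e1 : algebraMap k E (b' : k) * (x * ρ (ρ x)) * (s * σ s) = algebraMap k E (b : k) := by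
    linear_combination -(x * ρ (ρ x)) * h + algebraMap k E (b : k) * e0
  have e2 : algebraMap k E (b' : k) * (ρ x * x) * (ρ s * σ (ρ s)) = algebraMap k E (b : k) := by
    have := congrArg ρ e1
    rw [map_mul, map_mul, map_mul, map_mul, H.ρ3, ← H.comm, AlgEquiv.commutes,
      AlgEquiv.commutes] at this
    exact this
  have e3 : algebraMap k E (b' : k) * (ρ (ρ x) * ρ x) * (ρ (ρ s) * σ (ρ (ρ s))) =
      algebraMap k E (b : k) := by
    have := congrArg ρ e2
    rw [map_mul, map_mul, map_mul, map_mul, ← H.comm, AlgEquiv.commutes,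
      AlgEquiv.commutes] at this
    exact this
  obtain ⟨w, hw⟩ : ∃ w, w = (x * ρ x * ρ (ρ x) * (s * ρ s * ρ (ρ s)))⁻¹ := ⟨_, rfl⟩
  have hρw : ρ w = w := by
    rw [hw, map_inv₀]
    simp only [map_mul, H.ρ3]
    congr 1
    ring
  have hιw : ι w = w := by
    rw [hw, map_inv₀]
    simp only [map_mul, H.ιρ, hιx, hιs, H.ρ3]
    congr 1
    ring
  have e4 : w * σ w = (algebraMap k E (b' : k) / algebraMap k E (b : k)) ^ 3 := by
    have hP : x * ρ x * ρ (ρ x) ≠ 0 := mul_ne_zero (mul_ne_zero hx0 ((map_ne_zero ρ).mpr hx0))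
      ((map_ne_zero ρ).mpr ((map_ne_zero ρ).mpr hx0))
    have hS : s * ρ s * ρ (ρ s) ≠ 0 := mul_ne_zero (mul_ne_zero hs ((map_ne_zero ρ).mpr hs))
      ((map_ne_zero ρ).mpr ((map_ne_zero ρ).mpr hs))
    have hσS : σ s * σ (ρ s) * σ (ρ (ρ s)) ≠ 0 := by
      rw [← map_mul, ← map_mul]
      exact (map_ne_zero σ).mpr hS
    have hσ : σ w = (x * ρ x * ρ (ρ x) * (σ s * σ (ρ s) * σ (ρ (ρ s))))⁻¹ := by
      rw [hw, map_inv₀]
      simp only [map_mul]
      rw [hσx, H.comm x, H.comm (ρ x), H.comm x, hσx]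
    rw [hσ, hw, ← mul_inv, div_pow, inv_eq_iff_eq_inv, inv_div, eq_div_iff (pow_ne_zero 3 hb0')]
    calc _ = (algebraMap k E (b' : k) * (x * ρ (ρ x)) * (s * σ s)) *
          (algebraMap k E (b' : k) * (ρ x * x) * (ρ s * σ (ρ s))) *
          (algebraMap k E (b' : k) * (ρ (ρ x) * ρ x) * (ρ (ρ s) * σ (ρ (ρ s)))) := by ring
      _ = _ := by
        rw [e1, e2, e3]
        ring
  obtain ⟨u, hu⟩ := H.fixk ((w + σ w) / 2)
    (by rw [map_div₀, map_add, ← H.comm, hρw, map_ofNat])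
    (by rw [map_div₀, map_add, H.σ2, map_ofNat, add_comm])
    (by rw [map_div₀, map_add, ← H.σι, hιw, map_ofNat])
  obtain ⟨v, hv⟩ := H.fixk ((w - σ w) / (2 * α))
    (by rw [map_div₀, map_sub, map_mul, ← H.comm, hρw, map_ofNat, H.ρα])
    (by
      rw [map_div₀, map_sub, map_mul, H.σ2, map_ofNat, H.σα, mul_neg, div_neg, ← neg_div, neg_sub])
    (by rw [map_div₀, map_sub, map_mul, ← H.σι, hιw, map_ofNat, H.ια])
  have e5 : u ^ 2 - a * v ^ 2 = ((b' : k) / b) ^ 3 := by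
    apply (algebraMap k E).injective
    rw [map_sub, map_mul, map_pow, map_pow, map_pow, map_div₀, hu, hv, ← H.α2, ← e4]
    field_simp
    ring
  have hb : (b : k) ≠ 0 := b.ne_zero
  have hb' : (b' : k) ≠ 0 := b'.ne_zero
  refine ⟨u * (b / b'), v * (b / b'), ?_⟩
  have e6 : (u * ((b : k) / b')) ^ 2 - a * (v * (b / b')) ^ 2 =
      (u ^ 2 - a * v ^ 2) * (b / b') ^ 2 := by ring
  rw [e6, e5]
  field_simp

end zmain

end H369

section main

variable {k L E : Type} [Field k] [NumberField k] [Field L] [NumberField L] [Field E]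
  [Algebra k L] [Algebra k E] [Algebra L E] [IsScalarTower k L E] [NeZero (2 : E)]
  {ρ σ ι : E ≃ₐ[k] E} {α : E} {a b c : kˣ} {q : Lˣ}

omit [NumberField L] in
/-- Row gen2: the stabiliser of the standard plane is generated by centralisers. -/
theorem gen2 (H : HyI ρ σ ι α a b c q) {z : ATI ρ σ ι α a b c q} {t : E}
    (hz : z.1 (ep α) = t • ep α) : z ∈ stabsI ρ σ ι α a b c q := by
  have h2 : (2 : k) ≠ 0 := two_ne_zero
  have : NeZero (2 : k) := ⟨h2⟩
  have n2 : (2 : E) ≠ 0 := NeZero.ne 2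
  have hα0 : α ≠ 0 := al_ne H.α2
  obtain ⟨κ, hκ⟩ := z.2.1
  have ht : t ≠ 0 := by
    rintro rfl
    rw [zero_smul] at hz
    have h5 : (ep α : OctL E a b c) = 0 := z.1.injective (by rw [hz, map_zero])
    have h6 : (1 / 2 : E) = 0 := congrArg (fun z : OctL E a b c => z.fst.re) h5
    exact (one_div_ne_zero n2) h6
  have hstd := Oct.trip_std (a := a) (b := b) (c := c)
  have hst0 : tQ E hstd = t0 E a b c :=
    tQ_t0 h2 (p := 1) (r := 0) (by rfl) (by norm_num) hstd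
  -- the transported involution
  have zi : ∀ x, z.1 (z.1⁻¹ x) = x := fun x => by
    rw [← LinearEquiv.mul_apply, mul_inv_cancel]; rfl
  obtain ⟨T, hT⟩ : ∃ T, T = z.1 * t0 E a b c * z.1⁻¹ := ⟨_, rfl⟩
  have hTa : ∀ x, T x = z.1 (t0 E a b c (z.1⁻¹ x)) := fun x => by rw [hT]; rfl
  have zc : ∀ x, z.1⁻¹ (z.1 x) = x := fun x => by
    rw [← LinearEquiv.mul_apply, inv_mul_cancel]; rfl
  have hK0 : ρ (algebraMap L E (κ : L)) ≠ 0 :=
    (map_ne_zero ρ).mpr ((map_ne_zero _).mpr κ.ne_zero)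
  have hiK : ∀ x y, ρ (algebraMap L E (κ : L)) • z.1⁻¹ (tri ρ x y) =
      tri ρ (z.1⁻¹ x) (z.1⁻¹ y) := fun x y => by
    apply z.1.injective
    rw [map_smul, zi, hκ, zi, zi]
  have hiJ : ∀ x, z.1⁻¹ (Jm ρ σ α q x) = Jm ρ σ α q (z.1⁻¹ x) := fun x => by
    apply z.1.injective
    rw [zi, z.2.2.1, zi]
  have hiI : ∀ x, z.1⁻¹ (Im ι x) = Im ι (z.1⁻¹ x) := fun x => by
    apply z.1.injective
    rw [zi, z.2.2.2, zi]
  have hTm : T ∈ GTI ρ σ ι α a b c q := by
    refine ⟨fun x y => ?_, fun x => ?_, fun x => ?_⟩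
    · apply smul_right_injective _ hK0
      change ρ (algebraMap L E (κ : L)) • T (tri ρ x y) =
        ρ (algebraMap L E (κ : L)) • tri ρ (T x) (T y)
      rw [hTa, ← map_smul, ← map_smul, hiK, t0_tri, hκ, ← hTa, ← hTa]
    · rw [hTa, hTa, hiJ, t0_Jm, z.2.2.1]
    · rw [hTa, hTa, hiI, H369.t0_Im, z.2.2.2]
  have hT1 : T ≠ 1 := by
    intro h
    rw [hT, mul_inv_eq_one, mul_eq_left] at h
    have h3 := congrArg (fun f : OctL E a b c ≃ₗ[E] OctL E a b c => (f gl).snd.re) h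
    change -(1 : E) = 1 at h3
    exact n2 (by linear_combination -h3)
  have h00 : t0 E a b c * t0 E a b c = 1 := LinearEquiv.ext fun x => t0_t0 x
  have hTT : T * T = 1 := by
    rw [hT]
    calc z.1 * t0 E a b c * z.1⁻¹ * (z.1 * t0 E a b c * z.1⁻¹) =
        z.1 * (t0 E a b c * t0 E a b c) * z.1⁻¹ := by group
      _ = 1 := by rw [h00, mul_one, mul_inv_cancel]
  have hTz : T * z.1 = z.1 * t0 E a b c := by rw [hT, inv_mul_cancel_right]
  have hTe : T (ep α) = ep α := by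
    have e1 : T (z.1 (ep α)) = z.1 (t0 E a b c (ep α)) := congrArg (fun f => f (ep α)) hTz
    have e2 : t0 E a b c (ep α : OctL E a b c) = ep α := by
      apply Oct.ext
      · rfl
      · exact neg_zero
    rw [e2, hz, map_smul] at e1
    exact smul_right_injective _ ht e1
  obtain ⟨b', c', j, l, h, hT'⟩ := exists_tQI H hTm hT1 hTT hTe
  rw [hT'] at hTz
  -- the comparison of the two planes
  obtain ⟨Z, hZ⟩ : ∃ Z : OctL E a b c ≃ₗ[E] OctL E a b' c', ∀ x, tripO E h (Z x) = z.1 x :=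
    ⟨z.1.trans (tripO E h).symm, fun x => (tripO E h).apply_symm_apply _⟩
  have hZs : ∀ x, (tripO E h).symm (z.1 x) = Z x := fun x => by
    rw [← hZ, LinearEquiv.symm_apply_apply]
  obtain ⟨s, hs0, -, hιs, hst', hst⟩ := H369.zmain H.ρ3 H.α2 H.ρα H.σα H.ια (q := q) (Z := Z)
    (κ := ρ (algebraMap L E κ)) (t := t)
    (fun x y => (tripO E h).injective (by
      rw [hZ, hκ, map_smul, tripO_tri, hZ, hZ]))
    hK0
    (fun x => (tripO E h).injective (by rw [hZ, z.2.2.1, tripO_Jm, hZ]))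
    (fun x => (tripO E h).injective (by
      rw [hZ]
      have e1 : z.1 (t0 E a b c x) = tQ E h (z.1 x) := congrArg (fun f => f x) hTz.symm
      rw [e1]
      change tripO E h (t0 E a b' c' ((tripO E h).symm (z.1 x))) = _
      rw [hZs]))
    (fun x => (tripO E h).injective (by rw [hZ, z.2.2.2, H369.tripO_Im, hZ]))
    ((tripO E h).injective (by
      rw [hZ, hz, map_smul]
      congr 1
      rw [ep_eq, ep_eq, map_add, map_smul, map_smul, tripO_oup, tripO_oup,
        B.emb_one, B.emb_gi]))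
  obtain ⟨p, r, hpr⟩ := H369.exists_pr H hs0 hιs hst' hst
  have hD : p ^ 2 - (a : k) * r ^ 2 ≠ 0 := by
    intro h
    rw [h, mul_zero] at hpr
    exact b'.ne_zero hpr.symm
  obtain ⟨j', hj'⟩ : ∃ j' : Oct a b c, j' = ⟨⟨0, 0, p, r⟩, 0⟩ := ⟨_, rfl⟩
  have hsj : star j' = -j' := by
    rw [hj']
    apply ext8 <;> simp
  have hij : dot gi j' = 0 := by
    rw [B.dot_coord, hj']
    simp [gi]
  have hnj : Oct.norm j' = Oct.norm j := by
    rw [B.norm_of_sq h.sj h.jj, B.norm_coord, hj', ← hpr]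
    simp
    ring
  obtain ⟨n, hn, b₂, c₂, u, l₂, hu, hnu⟩ := exists_n H.hdiv h.sj hsj h.ij hij hnj
  have h₁ : Trip a b' c' gi j' (n.1.1 l) := by
    have := Oct.trip_map h (Φ := n.1.1) n.1.2
    rwa [mem_fixI.mp n.2, hn] at this
  have hm := H68.extE_memI (ρ := ρ) (σ := σ) (ι := ι) (α := α) (q := q) n
  obtain ⟨nA, hnA⟩ : ∃ nA : ATI ρ σ ι α a b c q, nA.1 = extE E n.1.1 :=
    ⟨⟨_, ⟨1, fun x y => by
      rw [Units.val_one, map_one, map_one, one_smul]
      exact hm.1 x y⟩, hm.2⟩, rfl⟩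
  have m1 : nA ∈ stabsI ρ σ ι α a b c q := by
    refine Subgroup.subset_closure ⟨b₂, c₂, u, l₂, hu, ?_⟩
    change nA.1 * tQ E hu = tQ E hu * nA.1
    rw [hnA]
    exact ext_tQ h2 n hu hu hnu
  have m2 : nA * z ∈ stabsI ρ σ ι α a b c q := by
    refine Subgroup.subset_closure ⟨b, c, gj, gl, hstd, ?_⟩
    change nA.1 * z.1 * tQ E hstd = tQ E hstd * (nA.1 * z.1)
    rw [hst0, mul_assoc, ← hTz, ← mul_assoc, hnA, ext_tQ h2 n h h₁ hn,
      tQ_t0 h2 hj' hD h₁, mul_assoc]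
  have m3 : z = nA⁻¹ * (nA * z) := by rw [inv_mul_cancel_left]
  rw [m3]
  exact mul_mem (inv_mem m1) m2

end main

end Vale.Agent.P011.D4I
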